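import Vale.Agent.Results.P033.RunBound

/-!
# P033: a circulant Hadamard matrix has many sign changes in its defining row

If the circulant matrix of `h : ZMod n → ℤ` is Hadamard and `n > 2`, then along every generator
`d` of `ZMod n` (in particular `d = 1`) the number `k` of places `x` with `h (x + d) ≠ h x`
satisfies `3 n ≤ 8 k ^ 2`.  Proof: if `k (L - 1) < n`, some window of `L` consecutive cells
contains no sign change (union bound), and the run bound `3 L ^ 2 ≤ 8 n` applies to it.
-/

namespace Vale.Agent.Results.P033.FewBlocks

theorem result (n : ℕ) [NeZero n] (h : ZMod n → ℤ) (hH : (Matrix.circulant h).IsHadamard)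
    (d : ZMod n) (hd : addOrderOf d = n) (hn : 2 < n) :
    3 * n ≤ 8 * (Finset.univ.filter fun x : ZMod n => h (x + d) ≠ h x).card ^ 2 := by
  classical
  set Ch := Finset.univ.filter fun x : ZMod n => h (x + d) ≠ h x with hCh
  set k := Ch.card with hk
  have win : ∀ L : ℕ, k * (L - 1) < n → ∃ a : ZMod n, ∀ i < L, h (a + i • d) = h a := by
    intro L hL
    let Bad : Finset (ZMod n) :=
      (Finset.range (L - 1)).biUnion fun j => Ch.image fun x => x - j • d
    have hcard : Bad.card < n := by
      calc Bad.card ≤ ∑ j ∈ Finset.range (L - 1), (Ch.image fun x => x - j • d).card :=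
            Finset.card_biUnion_le
        _ ≤ ∑ _j ∈ Finset.range (L - 1), k := Finset.sum_le_sum fun j _ => Finset.card_image_le
        _ = (L - 1) * k := by simp
        _ < n := by rw [mul_comm]; exact hL
    have hex : ∃ a, a ∉ Bad := by
      by_contra hall
      have hall' : ∀ a, a ∈ Bad := fun a => by
        by_contra hc
        exact hall ⟨a, hc⟩
      have hu : Bad = Finset.univ := Finset.eq_univ_iff_forall.2 hall'
      rw [hu, Finset.card_univ, ZMod.card] at hcard
      exact lt_irrefl _ hcard
    obtain ⟨a, ha⟩ := hex
    refine ⟨a, fun i => ?_⟩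
    induction i with
    | zero => intro _; simp
    | succ i ih =>
      intro hi
      have h1 := ih (by omega)
      have hnot : a + i • d ∉ Ch := by
        intro hmem
        apply ha
        simp only [Bad, Finset.mem_biUnion, Finset.mem_range, Finset.mem_image]
        exact ⟨i, by omega, a + i • d, hmem, by abel⟩
      have h2 : h (a + i • d + d) = h (a + i • d) := by
        by_contra hne
        exact hnot (by rw [hCh]; exact Finset.mem_filter.2 ⟨Finset.mem_univ _, hne⟩)
      rw [succ_nsmul, ← add_assoc, h2, h1]
  rcases Nat.eq_zero_or_pos k with hk0 | hkpos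
  · obtain ⟨a, ha⟩ := win n (by rw [hk0]; simp; omega)
    have hb := Vale.Agent.Results.P033.RunBound.result n h hH a d n (by rw [hd]) ha
    nlinarith
  · set L := (n - 1) / k + 1 with hLdef
    have hdiv : k * ((n - 1) / k) ≤ n - 1 := Nat.mul_div_le _ _
    have hlt : n - 1 < k * ((n - 1) / k) + k := by
      have := Nat.lt_div_mul_add (a := n - 1) hkpos
      rw [mul_comm] at this
      exact this
    obtain ⟨a, ha⟩ := win L (by simp only [hLdef, Nat.add_sub_cancel]; omega)
    have hLn : L ≤ addOrderOf d := by
      rw [hd, hLdef]
      have : (n - 1) / k ≤ n - 1 := Nat.div_le_self _ _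
      omega
    have hb := Vale.Agent.Results.P033.RunBound.result n h hH a d L hLn ha
    have hkL : n ≤ k * L := by
      rw [hLdef, mul_add, mul_one]; omega
    have h3 : n * (3 * n) ≤ n * (8 * k ^ 2) := by
      calc n * (3 * n) = 3 * (n * n) := by ring
        _ ≤ 3 * ((k * L) * (k * L)) := by gcongr
        _ = k ^ 2 * (3 * L ^ 2) := by ring
        _ ≤ k ^ 2 * (8 * n) := by gcongr
        _ = n * (8 * k ^ 2) := by ring
    exact Nat.le_of_mul_le_mul_left h3 (by omega)

end Vale.Agent.Results.P033.FewBlocks
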