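import Mathlib

/-!
P033: a new combinatorial restriction on the first row of a circulant Hadamard matrix.
If the defining vector is constant along L distinct cells of a cyclic arithmetic progression
(in particular along a run of L consecutive cells) then 3 L^2 is at most 8 n.
-/

namespace Vale.Agent.Results.P033.RunBound

open Finset

variable {n : ℕ} [NeZero n]


theorem entry (h : ZMod n → ℤ) (hH : (Matrix.circulant h).IsHadamard) (i : ZMod n) :
    h i = 1 ∨ h i = -1 := by
  have := hH.apply_mem i 0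
  rw [Matrix.circulant_apply, sub_zero] at this
  exact Unitary.mem_iff_eq_one_or_eq_neg_one.mp this

theorem autocorr (h : ZMod n → ℤ) (hH : (Matrix.circulant h).IsHadamard) (x y : ZMod n) :
    ∑ j, h (j + x) * h (j + y) = if x = y then (n : ℤ) else 0 := by
  have := congr_fun (congr_fun hH.mul_conjTranspose x) y
  simp [Matrix.mul_apply, Matrix.one_apply, ZMod.card] at this
  rw [← this]
  exact Fintype.sum_equiv (Equiv.neg _) _ _ (fun j => by simp [sub_eq_add_neg, add_comm])

theorem window_sq_sum (h : ZMod n → ℤ) (hH : (Matrix.circulant h).IsHadamard) (d : ZMod n)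
    (m : ℕ) (hm : m ≤ addOrderOf d) :
    ∑ j, (∑ t ∈ range m, h (j + t • d)) ^ 2 = m * n := by
  have h1 : ∀ j, (∑ t ∈ range m, h (j + t • d)) ^ 2
      = ∑ s ∈ range m, ∑ t ∈ range m, h (j + s • d) * h (j + t • d) := by
    intro j
    rw [sq, Finset.sum_mul_sum]
  simp_rw [h1]
  rw [Finset.sum_comm]
  have h2 : ∀ s ∈ range m, ∑ j, ∑ t ∈ range m, h (j + s • d) * h (j + t • d) = n := by
    intro s hs
    rw [Finset.sum_comm]
    simp_rw [autocorr h hH]
    rw [Finset.sum_eq_single s]
    · simp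
    · intro t ht hts
      rw [if_neg]
      intro heq
      apply hts
      have := nsmul_injOn_Iio_addOrderOf (x := d)
        (show s ∈ Set.Iio (addOrderOf d) from lt_of_lt_of_le (mem_range.mp hs) hm)
        (show t ∈ Set.Iio (addOrderOf d) from lt_of_lt_of_le (mem_range.mp ht) hm) heq
      exact this.symm
    · intro hs'; exact absurd hs hs'
  rw [Finset.sum_congr rfl h2]
  simp


theorem sum_ge (F : ZMod n → ℤ) (hF : ∀ j, 0 ≤ F j) (a d : ZMod n) (K : ℕ)
    (hK : K ≤ addOrderOf d) :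
    ∑ i ∈ range K, F (a + i • d) ≤ ∑ j, F j := by
  rw [← Finset.sum_image (f := F) (g := fun i : ℕ => a + i • d) (s := range K)]
  · exact Finset.sum_le_univ_sum_of_nonneg hF
  · intro x hx y hy hxy
    have h1 : x • d = y • d := add_left_cancel hxy
    exact nsmul_injOn_Iio_addOrderOf (x := d)
      (show x ∈ Set.Iio (addOrderOf d) from lt_of_lt_of_le (mem_range.mp hx) hK)
      (show y ∈ Set.Iio (addOrderOf d) from lt_of_lt_of_le (mem_range.mp hy) hK) h1


theorem neg_le_sum (G : ℕ → ℤ) (hG : ∀ s, G s = 1 ∨ G s = -1) (p : ℕ) (f : ℕ → ℕ) :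
    -(p : ℤ) ≤ ∑ t ∈ range p, G (f t) := by
  have := Finset.sum_le_sum (s := range p) (f := fun _ => (-1 : ℤ)) (g := fun t => G (f t))
    (fun t _ => by rcases hG (f t) with h | h <;> simp [h])
  simpa using this

theorem win_lb (G : ℕ → ℤ) (hG : ∀ s, G s = 1 ∨ G s = -1) (i p c q : ℕ)
    (hin : ∀ t, p ≤ t → t < p + c → G (i + t) = 1) :
    (c : ℤ) - p - q ≤ ∑ t ∈ range (p + c + q), G (i + t) := by
  rw [Finset.sum_range_add, Finset.sum_range_add]
  have h1 := neg_le_sum G hG p (fun t => i + t)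
  have h3 := neg_le_sum G hG q (fun t => i + (p + c + t))
  have h2 : ∑ t ∈ range c, G (i + (p + t)) = c := by
    rw [Finset.sum_congr rfl (g := fun _ => (1 : ℤ))]
    · simp
    · intro t ht
      exact hin (p + t) (Nat.le_add_right _ _) (by have := mem_range.mp ht; omega)
  linarith

theorem sum_sq_closed (r : ℕ) :
    3 * ∑ x ∈ range r, (2 * (x : ℤ)) ^ 2 = 2 * (r : ℤ) * ((r : ℤ) - 1) * (2 * (r : ℤ) - 1) := by
  induction r with
  | zero => simp
  | succ k ih =>
    rw [Finset.sum_range_succ, mul_add, ih]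
    push_cast
    ring

/-- abstract inequality for a plus-minus-one sequence which is 1 on [r, L + r) -/
theorem abstract_lb (G : ℕ → ℤ) (hG : ∀ s, G s = 1 ∨ G s = -1) (r L : ℕ) (hr : 2 * r ≤ L)
    (hrun : ∀ s, r ≤ s → s < L + r → G s = 1) :
    4 * (r : ℤ) * ((r : ℤ) - 1) * (2 * (r : ℤ) - 1) + 12 * ((L : ℤ) + 1 - 2 * r) * (r : ℤ) ^ 2
      ≤ 3 * ∑ i ∈ range (L + 1), (∑ t ∈ range (2 * r), G (i + t)) ^ 2 := by
  obtain ⟨k, hk⟩ : ∃ k, L + 1 = r + (k + r) := ⟨L + 1 - 2 * r, by omega⟩
  rw [hk, Finset.sum_range_add, Finset.sum_range_add]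
  -- part 1
  have p1 : ∑ x ∈ range r, (2 * (x : ℤ)) ^ 2
      ≤ ∑ i ∈ range r, (∑ t ∈ range (2 * r), G (i + t)) ^ 2 := by
    apply Finset.sum_le_sum
    intro i hi
    have hi' := mem_range.mp hi
    have := win_lb G hG i (r - i) (r + i) 0 (by
      intro t h1 h2
      exact hrun _ (by omega) (by omega))
    have e : r - i + (r + i) + 0 = 2 * r := by omega
    rw [e] at this
    have e2 : ((r - i : ℕ) : ℤ) = (r : ℤ) - i := by
      rw [Nat.cast_sub (le_of_lt hi')]
    rw [e2] at this
    push_cast at this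
    apply pow_le_pow_left₀ (by positivity)
    linarith
  have p2 : ∑ x ∈ range k, (2 * (r : ℤ)) ^ 2
      ≤ ∑ x ∈ range k, (∑ t ∈ range (2 * r), G (r + x + t)) ^ 2 := by
    apply Finset.sum_le_sum
    intro i hi
    have hi' := mem_range.mp hi
    have := win_lb G hG (r + i) 0 (2 * r) 0 (by
      intro t h1 h2
      exact hrun _ (by omega) (by omega))
    have e : 0 + 2 * r + 0 = 2 * r := by omega
    rw [e] at this
    push_cast at this
    apply pow_le_pow_left₀ (by positivity)
    linarith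
  have p3 : ∑ x ∈ range r, (2 * (x : ℤ)) ^ 2
      ≤ ∑ x ∈ range r, (∑ t ∈ range (2 * r), G (r + (k + x) + t)) ^ 2 := by
    rw [← Finset.sum_range_reflect]
    apply Finset.sum_le_sum
    intro i hi
    have hi' := mem_range.mp hi
    have := win_lb G hG (r + (k + i)) 0 (2 * r - 1 - i) (i + 1) (by
      intro t h1 h2
      exact hrun _ (by omega) (by omega))
    have e : 0 + (2 * r - 1 - i) + (i + 1) = 2 * r := by omega
    rw [e] at this
    have e2 : ((2 * r - 1 - i : ℕ) : ℤ) = 2 * (r : ℤ) - 1 - i := by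
      omega
    have e3 : ((r - 1 - i : ℕ) : ℤ) = (r : ℤ) - 1 - i := by
      omega
    rw [e2] at this
    rw [e3]
    push_cast at this
    apply pow_le_pow_left₀ (by omega)
    linarith
  have c := sum_sq_closed r
  have hk' : (L : ℤ) + 1 - 2 * r = k := by
    have : ((L + 1 : ℕ) : ℤ) = ((r + (k + r) : ℕ) : ℤ) := by rw [hk]
    push_cast at this
    linarith
  rw [hk']
  simp only [Finset.sum_const, card_range, nsmul_eq_mul] at p2
  nlinarith [p1, p2, p3, c]

theorem param_bound (h : ZMod n → ℤ) (hH : (Matrix.circulant h).IsHadamard) (a d : ZMod n)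
    (L r : ℕ) (hL : L < addOrderOf d) (hconst : ∀ i < L, h (a + i • d) = h a)
    (hr0 : 0 < r) (hr : 2 * r ≤ L) :
    6 * (r : ℤ) * L + 2 ≤ 3 * n + 8 * (r : ℤ) ^ 2 := by
  have hε : h a * h a = 1 := by rcases entry h hH a with e | e <;> simp [e]
  set G : ℕ → ℤ := fun s => h a * h (a - r • d + s • d) with hGdef
  have hG : ∀ s, G s = 1 ∨ G s = -1 := by
    intro s
    simp only [hGdef]
    rcases entry h hH a with e | e <;> rcases entry h hH (a - r • d + s • d) with e' | e' <;>
      rw [e, e'] <;> decide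
  have hrun : ∀ s, r ≤ s → s < L + r → G s = 1 := by
    intro s h1 h2
    obtain ⟨k, rfl⟩ := Nat.exists_eq_add_of_le h1
    simp only [hGdef]
    have : a - r • d + (r + k) • d = a + k • d := by
      rw [add_smul]; abel
    rw [this, hconst k (by omega), hε]
  have key := abstract_lb G hG r L hr hrun
  have hw : ∀ i, (∑ t ∈ range (2 * r), G (i + t)) ^ 2
      = (∑ t ∈ range (2 * r), h ((a - r • d + i • d) + t • d)) ^ 2 := by
    intro i
    have : ∑ t ∈ range (2 * r), G (i + t)
        = h a * ∑ t ∈ range (2 * r), h ((a - r • d + i • d) + t • d) := by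
      rw [Finset.mul_sum]
      apply Finset.sum_congr rfl
      intro t _
      simp only [hGdef]
      rw [add_smul, add_assoc]
    rw [this, mul_pow, sq (h a), hε, one_mul]
  simp_rw [hw] at key
  have h2 := sum_ge (fun j => (∑ t ∈ range (2 * r), h (j + t • d)) ^ 2)
    (fun j => sq_nonneg _) (a - r • d) d (L + 1) hL
  have h3 := window_sq_sum h hH d (2 * r) (by omega)
  rw [h3] at h2
  push_cast at h2
  have hrpos : (0 : ℤ) < r := by exact_mod_cast hr0
  have h4 : 4 * (r : ℤ) * ((r : ℤ) - 1) * (2 * (r : ℤ) - 1)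
      + 12 * ((L : ℤ) + 1 - 2 * r) * (r : ℤ) ^ 2 ≤ 3 * (2 * r * n) := by linarith
  have h5 : (2 * (r : ℤ)) * (6 * (r : ℤ) * L + 2) ≤ (2 * (r : ℤ)) * (3 * n + 8 * (r : ℤ) ^ 2) := by
    nlinarith [h4]
  exact le_of_mul_le_mul_left h5 (by positivity)

theorem full_coset (h : ZMod n → ℤ) (hH : (Matrix.circulant h).IsHadamard) (a d : ZMod n)
    (hconst : ∀ i < addOrderOf d, h (a + i • d) = h a) :
    (addOrderOf d : ℤ) ^ 2 ≤ n := by
  set L := addOrderOf d with hLdef
  have hLpos : 0 < L := addOrderOf_pos d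
  have hε : h a * h a = 1 := by rcases entry h hH a with e | e <;> simp [e]
  have hall : ∀ i : ℕ, h (a + i • d) = h a := by
    intro i
    rw [← mod_addOrderOf_nsmul]
    exact hconst _ (Nat.mod_lt _ hLpos)
  have h2 := sum_ge (fun j => (∑ t ∈ range L, h (j + t • d)) ^ 2)
    (fun j => sq_nonneg _) a d L le_rfl
  have h3 := window_sq_sum h hH d L le_rfl
  rw [h3] at h2
  have hw : ∀ i : ℕ, (∑ t ∈ range L, h (a + i • d + t • d)) ^ 2 = (L : ℤ) ^ 2 := by
    intro i
    have : ∑ t ∈ range L, h (a + i • d + t • d) = L * h a := by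
      rw [Finset.sum_congr rfl (g := fun _ => h a)]
      · simp
      · intro t _
        rw [add_assoc, ← add_smul]
        exact hall _
    rw [this, mul_pow, sq (h a), hε, mul_one]
  simp_rw [hw] at h2
  simp only [Finset.sum_const, card_range, nsmul_eq_mul] at h2
  have hLpos' : (0 : ℤ) < L := by exact_mod_cast hLpos
  have : (L : ℤ) * (L : ℤ) ^ 2 ≤ L * n := h2
  exact le_of_mul_le_mul_left this hLpos'

theorem result (n : ℕ) [NeZero n] (h : ZMod n → ℤ) (hH : (Matrix.circulant h).IsHadamard)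
    (a d : ZMod n) (L : ℕ) (hL : L ≤ addOrderOf d)
    (hconst : ∀ i < L, h (a + i • d) = h a) :
    3 * L ^ 2 ≤ 8 * n := by
  have hn : 1 ≤ n := Nat.one_le_iff_ne_zero.mpr (NeZero.ne n)
  rcases Nat.lt_or_ge L (addOrderOf d) with hlt | hge
  · rcases Nat.lt_or_ge L 2 with hs | hs
    · interval_cases L <;> omega
    · have hb := param_bound h hH a d L ((3 * L + 4) / 8) hlt hconst (by omega) (by omega)
      set r := (3 * L + 4) / 8 with hr
      have h1 : 8 * r ≤ 3 * L + 4 := by omega
      have h2 : 3 * L + 4 < 8 * r + 8 := by omega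
      have h1' : 8 * (r : ℤ) - 3 * L ≤ 4 := by exact_mod_cast (by omega : (8 * (r : ℤ) - 3 * L ≤ 4))
      have h2' : -4 ≤ 8 * (r : ℤ) - 3 * L := by omega
      have h3 : (8 * (r : ℤ) - 3 * L) ^ 2 ≤ 16 := by nlinarith
      have : 3 * (L : ℤ) ^ 2 ≤ 8 * n := by nlinarith
      exact_mod_cast this
  · have hLe : L = addOrderOf d := le_antisymm hL hge
    subst hLe
    have := full_coset h hH a d hconst
    have h' : (addOrderOf d) ^ 2 ≤ n := by exact_mod_cast this
    omega

end Vale.Agent.Results.P033.RunBound
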